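import Vale.Agent.P267.H661.Gf
import Vale.Agent.P267.H661.GaudOf
import Vale.Agent.P267.H469.CalcInst

/-! P267 / H469: the scalar (Gauduchon) input for the calculus of smooth forms, from package GAUD
(helper661). -/

set_option linter.unusedSectionVars false
set_option linter.unusedVariables false

open scoped Manifold ContDiff ComplexConjugate Topology
open MeasureTheory Set

noncomputable section

namespace Vale.Agent.P267.H469

open Vale.Agent.P267.FL
open Vale.Agent.P267.H661 (gop gfun Scal reF imF)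
open Vale.Agent.P272.K.LIN (CkFn)

variable {X : Type*} [TopologicalSpace X] [ChartedSpace C2 X] [IsManifold 𝓘(ℂ, C2) ω X]
variable [T2Space X] [CompactSpace X] [ConnectedSpace X]

/-- functions with `tr_h ∂∂̄ s = 0` are constant -/
theorem const_of_trh {h : X → Matrix (Fin 2) (Fin 2) ℂ} (hh : IsHerm h) {s : X → ℂ}
    (hs : Reg0 ∞ 0 s) (h0 : ∀ x, trh h (ddb s) x = 0) : ∃ c : ℂ, s = fun _ => c := by
  have hs' : CkFn C2 ∞ s := H661.reg0_iff.1 hs
  have hs2 : CkFn C2 2 s := H661.ckFn_two' hs'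
  have h1 : ∀ x, (gop hh).P (reF s) x = 0 ∧ (gop hh).P (imF s) x = 0 := by
    intro x
    have h2 := h0 x
    rw [H661.trh_eq hh hs2] at h2
    constructor
    · have := congrArg Complex.re h2
      simpa using this
    · have := congrArg Complex.im h2
      simpa using this
  obtain ⟨x0⟩ := (inferInstance : Nonempty X)
  refine ⟨s x0, funext fun x => Complex.ext ?_ ?_⟩
  · exact (gop hh).const_of_nonneg (H661.reF_ck hs2) (fun y => (h1 y).1.ge) x x0
  · exact (gop hh).const_of_nonneg (H661.imF_ck hs2) (fun y => (h1 y).2.ge) x x0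

theorem trh_zero (h : X → Matrix (Fin 2) (Fin 2) ℂ) : trh h 0 = 0 := by
  funext x; simp [trh]

/-- **The calculus of smooth forms** on a compact connected complex surface with a Hermitian
metric `h`. -/
def calcH {h : X → Matrix (Fin 2) (Fin 2) ℂ} (hh : IsHerm h) :
    Calc (S0 X) (Om1 X) (Om2 X) (Om3 X) :=
  calcX hh fun s hs h0 => const_of_trh hh hs fun x => by rw [h0, trh_zero]; rfl

omit [T2Space X] [CompactSpace X] [ConnectedSpace X] in
theorem D1_P01 (A : Om1 X) : ((D1 (P01 A)).2.1 : X → Matrix (Fin 2) (Fin 2) ℂ) =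
    del1 (A.2 : X → Fin 2 → ℂ) := by
  have h3 : dbar10 ((0 : S10 X) : X → Fin 2 → ℂ) = 0 := by
    have : dbar10L (0 : S10 X) = 0 := map_zero _
    exact congrArg (fun s : S11 X => (s : X → Matrix (Fin 2) (Fin 2) ℂ)) this
  change del1 (A.2 : X → Fin 2 → ℂ) + dbar10 ((0 : S10 X) : X → Fin 2 → ℂ) = _
  rw [h3, add_zero]

theorem tr_ddc {h : X → Matrix (Fin 2) (Fin 2) ℂ} (hh : IsHerm h) (u : S0 X) :
    (((calcH hh).tr ((calcH hh).d1 ((calcH hh).p01 ((calcH hh).d0 u))) : S0 X) : X → ℂ) =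
      trh h (ddb (u : X → ℂ)) := by
  change trh h ((D1 (P01 (D0 u))).2.1 : X → Matrix (Fin 2) (Fin 2) ℂ) = _
  rw [D1_P01]
  rfl

/-- **The scalar input** of package GAUD for the calculus of smooth forms. -/
def gaudScal {h : X → Matrix (Fin 2) (Fin 2) ℂ} (hh : IsHerm h) : Scal (calcH hh) where
  G := {
    toFun := fun s => gfun hh (s : X → ℂ)
    map_add' := fun s t => H661.gfun_add hh (H661.reg0_iff.1 s.2) (H661.reg0_iff.1 t.2)
    map_smul' := fun c s => H661.gfun_smul hh (H661.reg0_iff.1 s.2) c }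
  G_one := by
    change gfun hh (fun _ : X => (1 : ℂ)) ≠ 0
    rw [H661.gfun_const]
    exact one_ne_zero
  G_ddc u := by
    change gfun hh (((calcH hh).tr ((calcH hh).d1 ((calcH hh).p01 ((calcH hh).d0 u))) : S0 X) :
      X → ℂ) = 0
    rw [tr_ddc]
    exact H661.gfun_ddb hh (H661.reg0_iff.1 u.2)
  G_surj g hg := by
    obtain ⟨u, hu, hu2⟩ := H661.exists_trh_ddb_eq hh (H661.reg0_iff.1 g.2) hg
    refine ⟨⟨u, H661.reg0_iff.2 hu⟩, Subtype.ext ?_⟩
    rw [tr_ddc]
    exact hu2

/-- **Existence of the Gauduchon data** if `b_1 = 1`. -/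
theorem nonempty_gaud {h : X → Matrix (Fin 2) (Fin 2) ℂ} (hh : IsHerm h)
    (h1 : Module.finrank ℂ (calcH hh).H1 = 1) : Nonempty (calcH hh).Gaud :=
  H661.Scal.nonempty_gaud (gaudScal hh) h1

end Vale.Agent.P267.H469
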