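import Vale.Agent.P267.H857.Alg
import Vale.Agent.P267.H469.Gaud
import Vale.Agent.P267.H857.Betti469

/-! P267 / H469: literal form (language `OneF`, `TwoF`) of the facts on closed surfaces. -/

set_option linter.unusedSectionVars false
set_option linter.unusedVariables false

open scoped Manifold ContDiff ComplexConjugate Topology
open MeasureTheory Set

noncomputable section

namespace Vale.Agent.P267.H469

open Vale.Agent.P267.FL

variable {X : Type*} [TopologicalSpace X] [ChartedSpace C2 X] [IsManifold 𝓘(ℂ, C2) ω X]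

/-- a smooth one-form -/
def toOm1 (A : OneF X) (h : A.Smooth) : Om1 X := (⟨A.f10, h.s10⟩, ⟨A.f01, h.s01⟩)
/-- a smooth two-form -/
def toOm2 (F : TwoF X) (h : F.Smooth) : Om2 X := (⟨F.f20, h.s20⟩, ⟨F.f11, h.s11⟩, ⟨F.f02, h.s02⟩)

/-- the underlying one-form -/
def ofOm1 : Om1 X →ₗ[ℂ] OneF X where
  toFun A := ⟨A.1, A.2⟩
  map_add' A B := rfl
  map_smul' c A := rfl

/-- the underlying two-form -/
def ofOm2 : Om2 X →ₗ[ℂ] TwoF X where
  toFun F := ⟨F.1, F.2.1, F.2.2⟩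
  map_add' A B := rfl
  map_smul' c A := rfl

theorem ofOm1_inj {A B : Om1 X} (h : ofOm1 A = ofOm1 B) : A = B :=
  Prod.ext (Subtype.ext (congrArg OneF.f10 h)) (Subtype.ext (congrArg OneF.f01 h))

theorem ofOm2_inj {A B : Om2 X} (h : ofOm2 A = ofOm2 B) : A = B :=
  Prod.ext (Subtype.ext (congrArg TwoF.f20 h)) (Prod.ext (Subtype.ext (congrArg TwoF.f11 h))
    (Subtype.ext (congrArg TwoF.f02 h)))

theorem ofOm1_toOm1 (A : OneF X) (h : A.Smooth) : ofOm1 (toOm1 A h) = A := rfl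
theorem ofOm2_toOm2 (A : TwoF X) (h : A.Smooth) : ofOm2 (toOm2 A h) = A := rfl
theorem ofOm1_smooth (A : Om1 X) : (ofOm1 A).Smooth := ⟨A.1.2, A.2.2⟩
theorem ofOm2_smooth (A : Om2 X) : (ofOm2 A).Smooth := ⟨A.1.2, A.2.1.2, A.2.2.2⟩
theorem ofOm1_D0 (u : S0 X) : ofOm1 (D0 u) = dF0 (u : X → ℂ) := rfl
theorem ofOm2_D1 (A : Om1 X) : ofOm2 (D1 A) = (ofOm1 A).d := rfl

theorem D1_eq_zero {A : Om1 X} : D1 A = 0 ↔ (ofOm1 A).d = 0 := by
  rw [← ofOm2_D1]
  constructor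
  · intro h; rw [h, map_zero]
  · intro h; exact ofOm2_inj (h.trans (map_zero _).symm)

theorem D2_eq_zero {F : Om2 X} : D2 F = 0 ↔ (ofOm2 F).Closed := by
  have h12 : (ofOm2 F).d12 = ((D2 F).2 : X → Fin 2 → ℂ) := d12_eq (ofOm2 F)
  have h21 : (ofOm2 F).d21 = ((D2 F).1 : X → Fin 2 → ℂ) := rfl
  unfold TwoF.Closed
  rw [h12, h21]
  constructor
  · intro h
    rw [h]
    exact ⟨fun _ _ => rfl, fun _ _ => rfl⟩
  · rintro ⟨h1, h2⟩
    exact Prod.ext (Subtype.ext (funext fun x => funext fun j => h1 x j))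
      (Subtype.ext (funext fun x => funext fun j => h2 x j))

theorem C1L_eq_self {A : Om1 X} : C1L A = A ↔ (ofOm1 A).Real := by
  constructor
  · intro h x i
    have h1 : cj1 ((A.2 : S01 X) : X → Fin 2 → ℂ) = A.1 :=
      congrArg (fun B : Om1 X => (B.1 : X → Fin 2 → ℂ)) h
    exact (congrFun (congrFun h1 x) i).symm
  · intro h
    have h1 : cj1 ((A.2 : S01 X) : X → Fin 2 → ℂ) = A.1 := by
      funext x i; exact (h x i).symm
    have h2 : cj1 ((A.1 : S10 X) : X → Fin 2 → ℂ) = A.2 := by rw [← h1, cj1_cj1]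
    exact Prod.ext (Subtype.ext h1) (Subtype.ext h2)

theorem C2L_eq_self {F : Om2 X} : C2L F = F ↔ (ofOm2 F).Real := by
  constructor
  · intro h x
    have h1 : cj0 ((F.2.2 : S02 X) : X → ℂ) = F.1 :=
      congrArg (fun B : Om2 X => (B.1 : X → ℂ)) h
    have h2 : cj11 ((F.2.1 : S11 X) : X → Matrix (Fin 2) (Fin 2) ℂ) = F.2.1 :=
      congrArg (fun B : Om2 X => (B.2.1 : X → Matrix (Fin 2) (Fin 2) ℂ)) h
    refine ⟨(congrFun h1 x).symm, fun i j => ?_⟩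
    exact (congrFun (congrFun (congrFun h2 x) j) i).symm
  · intro h
    have h1 : cj0 ((F.2.2 : S02 X) : X → ℂ) = F.1 := by
      funext x; exact (h x).1.symm
    have h2 : cj11 ((F.2.1 : S11 X) : X → Matrix (Fin 2) (Fin 2) ℂ) = F.2.1 := by
      funext x; ext i j; exact ((h x).2 j i).symm
    have h3 : cj0 ((F.1 : S20 X) : X → ℂ) = F.2.2 := by rw [← h1, cj0_cj0]
    exact Prod.ext (Subtype.ext h1) (Prod.ext (Subtype.ext h2) (Subtype.ext h3))

theorem D1_C_ker {A : Om1 X} (h : D1 A = 0) : D1 (C1L A) = 0 := by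
  rw [D1_C, h, map_zero]

theorem D2_C_ker {F : Om2 X} (h : D2 F = 0) : D2 (C2L F) = 0 := by
  have h21 : (toF F).d21 = ((D2 F).1 : X → Fin 2 → ℂ) := rfl
  have h12 : (toF F).d12 = ((D2 F).2 : X → Fin 2 → ℂ) := d12_eq (toF F)
  have k21 : (toF (C2L F)).d21 = ((D2 (C2L F)).1 : X → Fin 2 → ℂ) := rfl
  have k12 : (toF (C2L F)).d12 = ((D2 (C2L F)).2 : X → Fin 2 → ℂ) := d12_eq (toF (C2L F))
  have e : toF (C2L F) = cjF (toF F) := rfl
  have c0 : cj1 (0 : X → Fin 2 → ℂ) = 0 := by funext x i; simp [cj1]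
  rw [h] at h21 h12
  refine Prod.ext (Subtype.ext ?_) (Subtype.ext ?_)
  · rw [← k21, e, d21_cj, h12]
    exact c0
  · rw [← k12, e, d12_cj, h21]
    exact c0

variable [T2Space X] [CompactSpace X] [ConnectedSpace X]

/-- `b_1(X) = dim H¹_dR(X, ℂ)` for the calculus of smooth forms -/
theorem finrank_H1_calc {h : X → Matrix (Fin 2) (Fin 2) ℂ} (hh : IsHerm h) {n : ℕ}
    (hb : BettiSucc X 0 n) : Module.finrank ℂ (calcH hh).H1 = n :=
  (H857.finrank_H1 hb).2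

/-- `b_2(X) = dim H²_dR(X, ℂ)` for the calculus of smooth forms -/
theorem finrank_H2_calc {h : X → Matrix (Fin 2) (Fin 2) ℂ} (hh : IsHerm h) {n : ℕ}
    (hb : BettiSucc X 1 n) : Module.finrank ℂ (calcH hh).H2 = n :=
  (H857.finrank_H2 hb).2

/-- `BettiSucc X 1 n` from the dimension (for `n > 0`) -/
theorem bettiSucc_one_of_finrank {h : X → Matrix (Fin 2) (Fin 2) ℂ} (hh : IsHerm h) {n : ℕ}
    (hn : 0 < n) (hb : Module.finrank ℂ (calcH hh).H2 = n) : BettiSucc X 1 n := by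
  rw [H857.bettiSucc_one_iff_D, H857.isBetti_iff_finrank]
  refine ⟨?_, hb⟩
  exact Module.finite_of_finrank_pos (by
    change 0 < Module.finrank ℂ (calcH hh).H2
    rw [hb]; exact hn)

/-- `BettiSucc X 0 n` from the dimension (for `n > 0`) -/
theorem bettiSucc_zero_of_finrank {h : X → Matrix (Fin 2) (Fin 2) ℂ} (hh : IsHerm h) {n : ℕ}
    (hn : 0 < n) (hb : Module.finrank ℂ (calcH hh).H1 = n) : BettiSucc X 0 n := by
  rw [H857.bettiSucc_zero_iff_D, H857.isBetti_iff_finrank]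
  refine ⟨?_, hb⟩
  exact Module.finite_of_finrank_pos (by
    change 0 < Module.finrank ℂ (calcH hh).H1
    rw [hb]; exact hn)

/-- The Gauduchon data exist if `b_1(X) = 1`. -/
theorem gaud_of_betti {h : X → Matrix (Fin 2) (Fin 2) ℂ} (hh : IsHerm h)
    (hb : BettiSucc X 0 1) : Nonempty (calcH hh).Gaud :=
  nonempty_gaud hh (finrank_H1_calc hh hb)

/-- **`h^{1,0} = 0`** if `b_1 = 1` -/
theorem hol1_eq_zero_lit {h : X → Matrix (Fin 2) (Fin 2) ℂ} (hh : IsHerm h)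
    (hb : BettiSucc X 0 1) {c : X → Fin 2 → ℂ} (hc : Reg10 ∞ c) (h0 : dbar10 c = 0) : c = 0 := by
  obtain ⟨A⟩ := gaud_of_betti hh hb
  have hw : (calcH hh).is10 ((⟨c, hc⟩, 0) : Om1 X) := rfl
  have h11 : (calcH hh).p11 ((calcH hh).d1 ((⟨c, hc⟩, 0) : Om1 X)) = 0 := by
    change P11 (D1 ((⟨c, hc⟩, 0) : Om1 X)) = 0
    rw [P11_apply]
    refine Prod.ext rfl (Prod.ext (Subtype.ext ?_) rfl)
    change del1 ((0 : S01 X) : X → Fin 2 → ℂ) + dbar10 c = 0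
    have h3 : del1 ((0 : S01 X) : X → Fin 2 → ℂ) = 0 := by
      have : del1L (0 : S01 X) = 0 := map_zero _
      exact congrArg (fun s : S11 X => (s : X → Matrix (Fin 2) (Fin 2) ℂ)) this
    rw [h3, h0, add_zero]
  have h1 := (calcH hh).hol1_eq_zero (Calc.b1le_of_finrank A (finrank_H1_calc hh hb)) hw h11
  exact congrArg (fun B : Om1 X => (B.1 : X → Fin 2 → ℂ)) h1

/-- **`h^{0,1} = 1`** if `b_1 = 1`: there is a closed real one-form `θ` (not exact) such that every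
`∂̄`-closed `(0,1)`-form is `t θ^{0,1} + ∂̄ u` with unique `t`; the trace of `∂θ^{0,1}` is a nonzero
constant. -/
theorem dbar_closed_lit {h : X → Matrix (Fin 2) (Fin 2) ℂ} (hh : IsHerm h)
    (hb : BettiSucc X 0 1) : ∃ (θ : OneF X) (c : ℂ), θ.Smooth ∧ θ.Real ∧ θ.d = 0 ∧ c ≠ 0 ∧
      (∀ x, trh h (del1 θ.f01) x = c) ∧
      (∀ a : X → Fin 2 → ℂ, Reg1 ∞ 0 a → dbar1 0 a = 0 →
        ∃ (t : ℂ) (u : X → ℂ), Reg0 ∞ 0 u ∧ a = t • θ.f01 + dbar0 0 u) ∧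
      ∀ (t : ℂ) (u : X → ℂ), Reg0 ∞ 0 u → t • θ.f01 = dbar0 0 u → t = 0 := by
  obtain ⟨A⟩ := gaud_of_betti hh hb
  have htr := A.tr_eq
  refine ⟨ofOm1 A.θ, A.c, ofOm1_smooth _, C1L_eq_self.1 A.real, D1_eq_zero.1 A.closed, A.c_ne,
    ?_, ?_, ?_⟩
  · intro x
    have h1 := congrArg (fun s : S0 X => (s : X → ℂ) x) htr
    have h2 : trh h ((D1 (P01 A.θ)).2.1 : X → Matrix (Fin 2) (Fin 2) ℂ) x = A.c * 1 := h1
    rw [D1_P01, mul_one] at h2
    exact h2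
  · intro a ha h0
    have ha' : (calcH hh).is01 ((0, ⟨a, ha⟩) : Om1 X) := rfl
    have hd : (calcH hh).p02 ((calcH hh).d1 ((0, ⟨a, ha⟩) : Om1 X)) = 0 := by
      change P02 (D1 ((0, ⟨a, ha⟩) : Om1 X)) = 0
      rw [P02_apply]
      exact Prod.ext rfl (Prod.ext rfl (Subtype.ext h0))
    obtain ⟨t, u, h1⟩ := Calc.dbar_closed' A (Calc.Z10_eq_bot A (finrank_H1_calc hh hb)) ha' hd
    refine ⟨t, u, u.2, ?_⟩
    exact congrArg (fun B : Om1 X => (B.2 : X → Fin 2 → ℂ)) h1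
  · intro t u hu h1
    by_contra ht
    refine A.θ_not_exact (t⁻¹ • (⟨u, hu⟩ : S0 X)) ?_
    rw [map_smul, map_smul]
    have h2 : (calcH hh).p01 ((calcH hh).d0 (⟨u, hu⟩ : S0 X)) = t • (calcH hh).p01 A.θ := by
      change P01 (D0 (⟨u, hu⟩ : S0 X)) = t • P01 A.θ
      refine Prod.ext ?_ (Subtype.ext h1.symm)
      change (0 : S10 X) = t • (0 : S10 X)
      rw [smul_zero]
    rw [h2, smul_smul, inv_mul_cancel₀ ht, one_smul]

variable (X) in
/-- `H^{0,2} = 0` -/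
def H02X : Prop := ∀ b : X → ℂ, Reg2 ∞ 0 b → ∃ a : X → Fin 2 → ℂ, Reg1 ∞ 0 a ∧ dbar1 0 a = b

variable (X) in
/-- `H^{2,0} = 0` -/
def H20X : Prop := ∀ u : X → ℂ, Reg0 ∞ 1 u → dbar0 1 u = 0 → u = 0

theorem H02_of {h : X → Matrix (Fin 2) (Fin 2) ℂ} (hh : IsHerm h) (H : H02X X) :
    (calcH hh).H02 := by
  intro b hb
  obtain ⟨a, ha, h1⟩ := H (b.2.2 : X → ℂ) b.2.2.2
  refine ⟨(0, ⟨a, ha⟩), rfl, ?_⟩
  have hb' : b = P02 b := hb.symm
  rw [hb']
  change P02 (D1 (0, ⟨a, ha⟩)) = P02 b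
  rw [P02_apply, P02_apply]
  refine Prod.ext rfl (Prod.ext rfl (Subtype.ext ?_))
  exact h1

theorem H20_of {h : X → Matrix (Fin 2) (Fin 2) ℂ} (hh : IsHerm h) (H : H20X X) :
    (calcH hh).H20 := by
  intro b hb hd
  have hb' : b = P20 b := hb.symm
  have hd' : D2 (P20 b) = 0 := by rw [← hb']; exact hd
  have h1 : dbar0 1 (b.1 : X → ℂ) = 0 := by
    have h2 : (D2 (P20 b)).1 = 0 := by rw [hd']; rfl
    have h3 : dbar20L b.1 + del11L (0 : S11 X) = 0 := h2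
    rw [map_zero, add_zero] at h3
    exact congrArg (fun s : S21 X => (s : X → Fin 2 → ℂ)) h3
  have h4 : b.1 = 0 := Subtype.ext (H _ b.1.2 h1)
  rw [hb', P20_apply, h4]
  rfl

/-- **Negative definiteness of the intersection form**, literal version. -/
theorem neg_lit {h : X → Matrix (Fin 2) (Fin 2) ℂ} (hh : IsHerm h)
    (hb : BettiSucc X 0 1) (H : H02X X) (F : TwoF X) (hF : F.Smooth)
    (hr : F.Real) (hc : F.Closed) : (intX (F.wedge F)).re ≤ 0 ∧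
      ((intX (F.wedge F)).re = 0 → ∃ A : OneF X, A.Smooth ∧ A.d = F) := by
  obtain ⟨A⟩ := gaud_of_betti hh hb
  have hcl : (calcH hh).d2 (toOm2 F hF) = 0 := D2_eq_zero.2 hc
  have hre : (calcH hh).c2 (toOm2 F hF) = toOm2 F hF := C2L_eq_self.2 hr
  obtain ⟨h1, h2⟩ := (calcH hh).negdef A (H02_of hh H) hcl
  rw [hre] at h1 h2
  have e : (calcH hh).I22 (toOm2 F hF) (toOm2 F hF) = intX (F.wedge F) := rfl
  rw [e] at h1 h2
  refine ⟨h1, fun h3 => ?_⟩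
  obtain ⟨a, ha⟩ := h2 h3.ge
  refine ⟨ofOm1 a, ofOm1_smooth a, ?_⟩
  rw [← ofOm2_D1]
  exact (congrArg ofOm2 ha).symm

end Vale.Agent.P267.H469
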