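import Vale.Agent.P267.H469.Lit

/-! P267 / H469: the part of Serre duality used for `b_2 = h^{1,1}`, from its literal form. -/

set_option linter.unusedSectionVars false
set_option linter.unusedVariables false

open scoped Manifold ContDiff ComplexConjugate Topology
open MeasureTheory Set

noncomputable section

namespace Vale.Agent.P267.H469

open Vale.Agent.P267.FL

variable {X : Type*} [TopologicalSpace X] [ChartedSpace C2 X] [IsManifold 𝓘(ℂ, C2) ω X]

theorem dbar11_zero_law {g : X → Matrix (Fin 2) (Fin 2) ℂ} (hg : Reg11 ∞ g) (h0 : dbar11 g = 0)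
    {e : Ch X} (he : e ∈ atlas C2 X) {w : C2} (hw : w ∈ e.target) (i : Fin 2) :
    dzb 0 (fun v => loc11 e g v i 1) w - dzb 1 (fun v => loc11 e g v i 0) w = 0 := by
  have h1 : del11 (cj11 g) = 0 := by
    have h2 := congrArg cj1 h0
    rw [dbar11, cj1_cj1] at h2
    rw [h2]
    funext x i; simp [cj1]
  have h3 := del11_law (r11mono (r11cj hg) one_le_infty) he hw i
  rw [h1] at h3
  have h4 : ∀ j, (fun v => loc11 e (cj11 g) v j i) = fun v => - conj (loc11 e g v i j) := by
    intro j; funext v; exact loc11_cj11 e g v j i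
  rw [h4, h4, dz_neg, dz_neg, dz_conj, dz_conj] at h3
  have h5 : loc1 1 e (0 : X → Fin 2 → ℂ) w i = 0 := by simp [loc1]
  rw [h5] at h3
  have h6 := congrArg conj h3
  simp only [map_zero, map_sub, map_neg, Complex.conj_conj] at h6
  linear_combination h6

/-- `∂̄ ∂ g = 0` if `∂̄ g = 0` -/
theorem dbar1_del11 {g : X → Matrix (Fin 2) (Fin 2) ℂ} (hg : Reg11 ∞ g) (h0 : dbar11 g = 0) :
    dbar1 1 (del11 g) = 0 := by
  funext x
  have he := chart_mem_atlas C2 x
  have hd : ∀ i j, ContDiffOn ℝ ∞ (fun z => loc11 (chartAt C2 x) g z i j) (chartAt C2 x).target :=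
    fun i j => hg _ he i j
  have h1 : ∀ j, (fun z => loc1 1 (chartAt C2 x) (del11 g) z j) =ᶠ[𝓝 (chartAt C2 x x)]
      fun z => dz 0 (fun v => loc11 (chartAt C2 x) g v 1 j) z -
        dz 1 (fun v => loc11 (chartAt C2 x) g v 0 j) z := by
    intro j
    filter_upwards [near_target x] with z hz
    exact del11_law (r11mono hg one_le_infty) he hz j
  have hz1 : ∀ k i j, DifferentiableAt ℝ (dz k fun v => loc11 (chartAt C2 x) g v i j)
      (chartAt C2 x x) := fun k i j =>
    ((dz_contDiffOn (chartAt C2 x).open_target (hd i j) infty_add_one k).contDiffAt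
      (near_target x)).differentiableAt (by simp)
  have hz2 : ∀ k i j, DifferentiableAt ℝ (dzb k fun v => loc11 (chartAt C2 x) g v i j)
      (chartAt C2 x x) := fun k i j =>
    ((dzb_contDiffOn (chartAt C2 x).open_target (hd i j) infty_add_one k).contDiffAt
      (near_target x)).differentiableAt (by simp)
  have key : ∀ k j, dzb k (fun z => loc1 1 (chartAt C2 x) (del11 g) z j) (chartAt C2 x x) =
      dz 0 (dzb k fun v => loc11 (chartAt C2 x) g v 1 j) (chartAt C2 x x) -
        dz 1 (dzb k fun v => loc11 (chartAt C2 x) g v 0 j) (chartAt C2 x x) := by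
    intro k j
    rw [dzb_congr (h1 j), dzb_sub k (hz1 0 1 j) (hz1 1 0 j),
      ← dz_dzb_comm (cda (hd 1 j) (chart_mem x)), ← dz_dzb_comm (cda (hd 0 j) (chart_mem x))]
  have hzero : ∀ k i, dz k (dzb 0 fun v => loc11 (chartAt C2 x) g v i 1) (chartAt C2 x x) -
      dz k (dzb 1 fun v => loc11 (chartAt C2 x) g v i 0) (chartAt C2 x x) = 0 := by
    intro k i
    rw [← dz_sub k (hz2 0 i 1) (hz2 1 i 0)]
    have h2 : (fun z => dzb 0 (fun v => loc11 (chartAt C2 x) g v i 1) z -
        dzb 1 (fun v => loc11 (chartAt C2 x) g v i 0) z) =ᶠ[𝓝 (chartAt C2 x x)]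
        fun _ => (0 : ℂ) := by
      filter_upwards [near_target x] with z hz
      exact dbar11_zero_law hg h0 he hz i
    rw [dz_congr h2, dz_const]
  unfold dbar1
  rw [key, key]
  have e1 := hzero 0 1
  have e2 := hzero 1 0
  rw [Pi.zero_apply]
  linear_combination e1 - e2

variable (X) in
/-- Serre duality for `H¹(X, K)` and `H¹(X, 𝒪)` (injectivity part), literal form -/
def SL1X : Prop := ∀ w : X → Fin 2 → ℂ, Reg1 ∞ 1 w → dbar1 1 w = 0 →
  (∀ a : X → Fin 2 → ℂ, Reg1 ∞ 0 a → dbar1 0 a = 0 →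
    intX (fun x => a x 0 * w x 1 - a x 1 * w x 0) = 0) →
  ∃ η : X → ℂ, Reg0 ∞ 1 η ∧ dbar0 1 η = w

variable [T2Space X] [CompactSpace X] [ConnectedSpace X]

theorem SD21_of {h : X → Matrix (Fin 2) (Fin 2) ℂ} (hh : IsHerm h) (H : SL1X X) :
    (calcH hh).SD21 := by
  intro b hb hq ha
  have hb' : b = P11 b := hb.symm
  have hd2 : D2 b = (del11L b.2.1, dbar11L b.2.1) := by
    conv_lhs => rw [hb']
    rw [P11_apply]
    refine Prod.ext ?_ ?_
    · change dbar20L (0 : S20 X) + del11L b.2.1 = _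
      rw [map_zero, zero_add]
    · change dbar11L b.2.1 + del02L (0 : S02 X) = _
      rw [map_zero, add_zero]
  have hdb : dbar11L b.2.1 = 0 := by
    have h1 : Q12 (D2 b) = 0 := hq
    rw [hd2, Q12_apply] at h1
    exact congrArg Prod.snd h1
  have hdb' : dbar11 (b.2.1 : X → Matrix (Fin 2) (Fin 2) ℂ) = 0 :=
    congrArg (fun s : S12 X => (s : X → Fin 2 → ℂ)) hdb
  obtain ⟨η, hη, h1⟩ := H (del11 (b.2.1 : X → Matrix (Fin 2) (Fin 2) ℂ)) (reg_del11 b.2.1.2)
    (dbar1_del11 b.2.1.2 hdb') (by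
      intro a hra hda
      have h2 := ha ((0, ⟨a, hra⟩) : Om1 X) rfl (by
        change P02 (D1 ((0, ⟨a, hra⟩) : Om1 X)) = 0
        rw [P02_apply]
        exact Prod.ext rfl (Prod.ext rfl (Subtype.ext hda)))
      have h3 : I13L ((0, ⟨a, hra⟩) : Om1 X) (D2 b) = 0 := h2
      rw [hd2, I13L_apply] at h3
      rw [← h3]
      congr 1
      funext x
      change _ = (0 : ℂ) * _ - (0 : ℂ) * _ + (a x 0 * del11 (b.2.1 : X → Matrix (Fin 2) (Fin 2) ℂ) x 1 -
        a x 1 * del11 (b.2.1 : X → Matrix (Fin 2) (Fin 2) ℂ) x 0)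
      ring)
  refine ⟨((⟨η, hη⟩, 0) : Om2 X), rfl, ?_⟩
  change D2 ((⟨η, hη⟩, 0) : Om2 X) = D2 b
  rw [hd2, hdb]
  refine Prod.ext (Subtype.ext ?_) ?_
  · change dbar0 1 η + del11 ((0 : S11 X) : X → Matrix (Fin 2) (Fin 2) ℂ) = _
    have h3 : del11 ((0 : S11 X) : X → Matrix (Fin 2) (Fin 2) ℂ) = 0 := by
      have : del11L (0 : S11 X) = 0 := map_zero _
      exact congrArg (fun s : S21 X => (s : X → Fin 2 → ℂ)) this
    rw [h3, add_zero, h1]
    rfl
  · change dbar11L (0 : S11 X) + del02L (0 : S02 X) = 0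
    rw [map_zero, map_zero, add_zero]

/-- **`b_2 = h^{1,1}`**: the dimension of the space of `∂̄`-closed `(1,1)`-forms modulo `∂̄`-exact
ones is `b_2`, if `b_1 = 1` and there are no holomorphic two-forms. -/
theorem finrank_H11 {h : X → Matrix (Fin 2) (Fin 2) ℂ} (hh : IsHerm h) {n : ℕ}
    (h1 : BettiSucc X 0 1) (h2 : BettiSucc X 1 n) (H20 : H20X X) (H02 : H02X X) (HS : SL1X X) :
    Module.finrank ℂ (calcH hh).H11 = n := by
  obtain ⟨A⟩ := gaud_of_betti hh h1
  rw [← Calc.b2_eq_h11 A (Calc.Z10_eq_bot A (finrank_H1_calc hh h1)) (H20_of hh H20)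
    (H02_of hh H02) (SD21_of hh HS)]
  exact finrank_H2_calc hh h2

end Vale.Agent.P267.H469
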